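import Mathlib

/-!
# Row 258 — explicit polynomial data

`w` is a primitive sixth root of unity (`w ^ 2 = w - 1`).  The three Möbius maps are
`(q₁,p₁) = (X0, X1)`, `(q₂,p₂) = (X0, w X1)`, `(q₃,p₃) = (q3 w X0 X1, p3 w X0 X1)`;
`Fh` is the product of the three graphs (bidegree (3,3)), `A0h`, `A1h` have bidegree (6,2) and
restrict to `qᵢ ^ 8`, `pᵢ ^ 8` on the graphs, `Psih` has bidegree (3,7).
-/

set_option autoImplicit false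

namespace Crest.Agent.R258

section defs
variable {R : Type*} [CommRing R]

def q3 (w X0 X1 : R) : R := (-1 + 3 * w) * X0 + 2 * X1
def p3 (w X0 X1 : R) : R := 3 * X0 + (2 - 3 * w) * X1

/-- the three linear factors -/
def L1 (X0 X1 Y0 Y1 : R) : R := X0 * Y1 - X1 * Y0
def L2 (w X0 X1 Y0 Y1 : R) : R := X0 * Y1 - w * X1 * Y0
def L3 (w X0 X1 Y0 Y1 : R) : R := q3 w X0 X1 * Y1 - p3 w X0 X1 * Y0

def Fh (w X0 X1 Y0 Y1 : R) : R := L1 X0 X1 Y0 Y1 * L2 w X0 X1 Y0 Y1 * L3 w X0 X1 Y0 Y1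

def A0c0 (w X0 X1 : R) : R :=
  1 * X0 ^ 6
    + (308 - 140 * w) * X0 ^ 4 * X1 ^ 2
    + (136 - 800 * w) * X0 ^ 3 * X1 ^ 3
    + (-864 + 224 * w) * X0 ^ 2 * X1 ^ 4
    + (-160 + 416 * w) * X0 * X1 ^ 5
    + 64 * X1 ^ 6

def A0c1 (w X0 X1 : R) : R :=
  (-476 + 448 * w) * X0 ^ 5 * X1
    + (528 + 936 * w) * X0 ^ 4 * X1 ^ 2
    + (1504 - 1088 * w) * X0 ^ 3 * X1 ^ 3
    + (-96 - 576 * w) * X0 ^ 2 * X1 ^ 4
    + (-128 + 64 * w) * X0 * X1 ^ 5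

def A0c2 (w X0 X1 : R) : R :=
  (168 - 308 * w) * X0 ^ 6
    + (-664 - 136 * w) * X0 ^ 5 * X1
    + (-640 + 864 * w) * X0 ^ 4 * X1 ^ 2
    + (256 + 160 * w) * X0 ^ 3 * X1 ^ 3
    + (64 - 64 * w) * X0 ^ 2 * X1 ^ 4

def A1c0 (w X0 X1 : R) : R :=
  (729 * w) * X0 ^ 4 * X1 ^ 2
    + (3159 - 1215 * w) * X0 ^ 3 * X1 ^ 3
    + (1134 - 4374 * w) * X0 ^ 2 * X1 ^ 4
    + (-2700 + 459 * w) * X0 * X1 ^ 5
    + (-315 + 693 * w) * X1 ^ 6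

def A1c1 (w X0 X1 : R) : R :=
  (-729 - 729 * w) * X0 ^ 5 * X1
    + (-5103 + 4374 * w) * X0 ^ 4 * X1 ^ 2
    + (2106 + 5508 * w) * X0 ^ 3 * X1 ^ 3
    + (4941 - 3159 * w) * X0 ^ 2 * X1 ^ 4
    + (-63 - 1008 * w) * X0 * X1 ^ 5

def A1c2 (w X0 X1 : R) : R :=
  729 * X0 ^ 6
    + (1944 - 3159 * w) * X0 ^ 5 * X1
    + (-3240 - 1134 * w) * X0 ^ 4 * X1 ^ 2
    + (-2241 + 2700 * w) * X0 ^ 3 * X1 ^ 3
    + (378 + 315 * w) * X0 ^ 2 * X1 ^ 4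
    + 1 * X1 ^ 6

def Psih (w X0 X1 Y0 Y1 : R) : R :=
  ((-243) * X0 ^ 3 + (-486 + 810 * w) * X0 ^ 2 * X1 + (594 + 162 * w) * X0 * X1 ^ 2 + (189 - 252 * w) * X1 ^ 3) * Y0 ^ 7
    + ((81 - 243 * w) * X0 ^ 3 + (-621 + 54 * w) * X0 ^ 2 * X1 + (-324 + 639 * w) * X0 * X1 ^ 2 + (162 + 18 * w) * X1 ^ 3) * Y0 ^ 6 * Y1
    + ((216 - 81 * w) * X0 ^ 3 + (144 - 558 * w) * X0 ^ 2 * X1 + (-483 + 96 * w) * X0 * X1 ^ 2 + (-62 + 149 * w) * X1 ^ 3) * Y0 ^ 5 * Y1 ^ 2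
    + ((9 + 162 * w) * X0 ^ 3 + (486 - 219 * w) * X0 ^ 2 * X1 + (56 - 378 * w) * X0 * X1 ^ 2 + (-110 + 32 * w) * X1 ^ 3) * Y0 ^ 4 * Y1 ^ 3
    + ((-165 + 117 * w) * X0 ^ 3 + (56 + 322 * w) * X0 ^ 2 * X1 + (324 - 178 * w) * X0 * X1 ^ 2 + (4 - 76 * w) * X1 ^ 3) * Y0 ^ 3 * Y1 ^ 4
    + ((-62 - 87 * w) * X0 ^ 3 + (-322 + 258 * w) * X0 ^ 2 * X1 + (64 + 184 * w) * X0 * X1 ^ 2 + (64 - 40 * w) * X1 ^ 3) * Y0 ^ 2 * Y1 ^ 5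
    + ((108 - 120 * w) * X0 ^ 3 + (-144 - 140 * w) * X0 ^ 2 * X1 + (-184 + 168 * w) * X0 * X1 ^ 2 + (16 + 32 * w) * X1 ^ 3) * Y0 * Y1 ^ 6
    + ((84 + 28 * w) * X0 ^ 3 + (176 - 224 * w) * X0 ^ 2 * X1 + (-96 - 64 * w) * X0 * X1 ^ 2 + (-32 + 32 * w) * X1 ^ 3) * Y1 ^ 7

def A0h (w X0 X1 Y0 Y1 : R) : R :=
  A0c0 w X0 X1 * Y0 ^ 2 + A0c1 w X0 X1 * Y0 * Y1 + A0c2 w X0 X1 * Y1 ^ 2

def A1h (w X0 X1 Y0 Y1 : R) : R :=
  A1c0 w X0 X1 * Y0 ^ 2 + A1c1 w X0 X1 * Y0 * Y1 + A1c2 w X0 X1 * Y1 ^ 2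

/-- homogeneous coordinates of the point with affine coordinate `t` in chart `a` -/
def hc0 (a : Fin 2) (t : R) : R := if a = 0 then 1 else t
def hc1 (a : Fin 2) (t : R) : R := if a = 0 then t else 1

/-- dehomogenisations in the chart `α`, affine coordinates `s, t` -/
def Fch (α : Fin 2 × Fin 2) (w s t : R) : R := Fh w (hc0 α.1 s) (hc1 α.1 s) (hc0 α.2 t) (hc1 α.2 t)
def Psich (α : Fin 2 × Fin 2) (w s t : R) : R :=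
  Psih w (hc0 α.1 s) (hc1 α.1 s) (hc0 α.2 t) (hc1 α.2 t)
def Phich (α : Fin 2 × Fin 2) (w s t : R) : R :=
  if α.2 = 0 then A0h w (hc0 α.1 s) (hc1 α.1 s) 1 t else A1h w (hc0 α.1 s) (hc1 α.1 s) t 1

end defs

section ids
variable {R : Type*} [CommRing R] {w : R}

theorem idA (hw : w ^ 2 = w - 1) (X0 X1 Y0 Y1 : R) :
    A1h w X0 X1 Y0 Y1 * Y0 ^ 8 - A0h w X0 X1 Y0 Y1 * Y1 ^ 8
      = Fh w X0 X1 Y0 Y1 * Psih w X0 X1 Y0 Y1 := by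
  simp only [A1h, A0h, A0c0, A0c1, A0c2, A1c0, A1c1, A1c2, Fh, L1, L2, L3, q3, p3, Psih]
  grind

theorem A0h_g1 (X0 X1 : R) : A0h w X0 X1 X0 X1 = X0 ^ 8 := by
  simp only [A0h, A0c0, A0c1, A0c2]; ring

theorem A1h_g1 (X0 X1 : R) : A1h w X0 X1 X0 X1 = X1 ^ 8 := by
  simp only [A1h, A1c0, A1c1, A1c2]; ring

theorem A0h_g2 (hw : w ^ 2 = w - 1) (X0 X1 : R) : A0h w X0 X1 X0 (w * X1) = X0 ^ 8 := by
  simp only [A0h, A0c0, A0c1, A0c2]; grind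

theorem A1h_g2 (hw : w ^ 2 = w - 1) (X0 X1 : R) : A1h w X0 X1 X0 (w * X1) = (w * X1) ^ 8 := by
  simp only [A1h, A1c0, A1c1, A1c2]; grind

theorem A0h_g3 (hw : w ^ 2 = w - 1) (X0 X1 : R) :
    A0h w X0 X1 (q3 w X0 X1) (p3 w X0 X1) = q3 w X0 X1 ^ 8 := by
  simp only [A0h, A0c0, A0c1, A0c2, q3, p3]; grind

theorem A1h_g3 (hw : w ^ 2 = w - 1) (X0 X1 : R) :
    A1h w X0 X1 (q3 w X0 X1) (p3 w X0 X1) = p3 w X0 X1 ^ 8 := by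
  simp only [A1h, A1c0, A1c1, A1c2, q3, p3]; grind

/-- inverse of the third Möbius matrix (determinant one) -/
theorem g3_inv0 (hw : w ^ 2 = w - 1) (X0 X1 : R) :
    (2 - 3 * w) * q3 w X0 X1 - 2 * p3 w X0 X1 = X0 := by
  simp only [q3, p3]; grind

theorem g3_inv1 (hw : w ^ 2 = w - 1) (X0 X1 : R) :
    -3 * q3 w X0 X1 + (-1 + 3 * w) * p3 w X0 X1 = X1 := by
  simp only [q3, p3]; grind

theorem Fh_hom (a b X0 X1 Y0 Y1 : R) :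
    Fh w (a * X0) (a * X1) (b * Y0) (b * Y1) = a ^ 3 * b ^ 3 * Fh w X0 X1 Y0 Y1 := by
  simp only [Fh, L1, L2, L3, q3, p3]; ring

theorem A0h_hom (a b X0 X1 Y0 Y1 : R) :
    A0h w (a * X0) (a * X1) (b * Y0) (b * Y1) = a ^ 6 * b ^ 2 * A0h w X0 X1 Y0 Y1 := by
  simp only [A0h, A0c0, A0c1, A0c2]; ring

theorem A1h_hom (a b X0 X1 Y0 Y1 : R) :
    A1h w (a * X0) (a * X1) (b * Y0) (b * Y1) = a ^ 6 * b ^ 2 * A1h w X0 X1 Y0 Y1 := by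
  simp only [A1h, A1c0, A1c1, A1c2]; ring

theorem Psih_hom (a b X0 X1 Y0 Y1 : R) :
    Psih w (a * X0) (a * X1) (b * Y0) (b * Y1) = a ^ 3 * b ^ 7 * Psih w X0 X1 Y0 Y1 := by
  simp only [Psih]; ring

theorem A0c1_hom (a X0 X1 : R) : A0c1 w (a * X0) (a * X1) = a ^ 6 * A0c1 w X0 X1 := by
  simp only [A0c1]; ring

theorem A0c2_hom (a X0 X1 : R) : A0c2 w (a * X0) (a * X1) = a ^ 6 * A0c2 w X0 X1 := by
  simp only [A0c2]; ring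

end ids

section maps
variable {R S : Type*} [CommRing R] [CommRing S] {G : Type*} [FunLike G R S] [RingHomClass G R S]
  (f : G) (w X0 X1 Y0 Y1 : R)

theorem map_q3 : f (q3 w X0 X1) = q3 (f w) (f X0) (f X1) := by
  simp [q3, map_ofNat]
theorem map_p3 : f (p3 w X0 X1) = p3 (f w) (f X0) (f X1) := by
  simp [p3, map_ofNat]
theorem map_Fh : f (Fh w X0 X1 Y0 Y1) = Fh (f w) (f X0) (f X1) (f Y0) (f Y1) := by
  simp [Fh, L1, L2, L3, q3, p3, map_ofNat]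
theorem map_A0c1 : f (A0c1 w X0 X1) = A0c1 (f w) (f X0) (f X1) := by
  simp [A0c1, map_ofNat]
theorem map_A0c2 : f (A0c2 w X0 X1) = A0c2 (f w) (f X0) (f X1) := by
  simp [A0c2, map_ofNat]
theorem map_A0h : f (A0h w X0 X1 Y0 Y1) = A0h (f w) (f X0) (f X1) (f Y0) (f Y1) := by
  simp [A0h, A0c0, A0c1, A0c2, map_ofNat]
theorem map_A1h : f (A1h w X0 X1 Y0 Y1) = A1h (f w) (f X0) (f X1) (f Y0) (f Y1) := by
  simp [A1h, A1c0, A1c1, A1c2, map_ofNat]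
theorem map_Psih : f (Psih w X0 X1 Y0 Y1) = Psih (f w) (f X0) (f X1) (f Y0) (f Y1) := by
  simp [Psih, map_ofNat]
theorem map_hc0 (a : Fin 2) : f (hc0 a X0) = hc0 a (f X0) := by
  unfold hc0; split_ifs <;> simp
theorem map_hc1 (a : Fin 2) : f (hc1 a X0) = hc1 a (f X0) := by
  unfold hc1; split_ifs <;> simp
theorem map_Fch (α : Fin 2 × Fin 2) : f (Fch α w X0 Y0) = Fch α (f w) (f X0) (f Y0) := by
  simp only [Fch, map_Fh, map_hc0, map_hc1]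
theorem map_Psich (α : Fin 2 × Fin 2) : f (Psich α w X0 Y0) = Psich α (f w) (f X0) (f Y0) := by
  simp only [Psich, map_Psih, map_hc0, map_hc1]
theorem map_Phich (α : Fin 2 × Fin 2) : f (Phich α w X0 Y0) = Phich α (f w) (f X0) (f Y0) := by
  unfold Phich; split_ifs <;> simp only [map_A0h, map_A1h, map_hc0, map_hc1, map_one]

end maps

/-- the primitive sixth root of unity `1/2 + i √3/2` -/
noncomputable def om : ℂ := ⟨1 / 2, Real.sqrt 3 / 2⟩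

theorem om_sq : om ^ 2 = om - 1 := by
  have h : Real.sqrt 3 * Real.sqrt 3 = 3 := Real.mul_self_sqrt (by norm_num)
  apply Complex.ext
  · simp [om, pow_two]; nlinarith
  · simp [om, pow_two]; ring

theorem algebraMap_om_sq (R : Type*) [CommRing R] [Algebra ℂ R] :
    (algebraMap ℂ R om) ^ 2 = algebraMap ℂ R om - 1 := by
  rw [← map_pow, om_sq, map_sub, map_one]

theorem norm_om : ‖om‖ = 1 := by
  have h : Real.sqrt 3 * Real.sqrt 3 = 3 := Real.mul_self_sqrt (by norm_num)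
  have : ‖om‖ ^ 2 = 1 := by
    rw [Complex.sq_norm, Complex.normSq_apply]; simp [om]; nlinarith
  nlinarith [norm_nonneg om]

end Crest.Agent.R258
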